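import Mathlib.Analysis.InnerProductSpace.Basic
import Mathlib.Analysis.Normed.Module.FiniteDimension
import Mathlib.Analysis.Calculus.FDeriv.Basic
import Mathlib.Analysis.Seminorm

/-!
# P242, PART B (note 2715): data, hypotheses, level states, gluing interface

`E` is a finite dimensional real inner product space, `X` a metric space.
-/

open scoped RealInnerProductSpace Topology
open Metric

noncomputable section

namespace Vale.Agent.P242.PB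

/-- bilinear forms -/
abbrev Bi (E : Type) [NormedAddCommGroup E] [NormedSpace ℝ E] : Type := E →L[ℝ] E →L[ℝ] ℝ

section glue
variable {E : Type} [NormedAddCommGroup E] [InnerProductSpace ℝ E]

/-- The point `z` is good for the family `(q a, Z a)`, `a ∈ rel z`. -/
def Good {ι : Type} (rel : E → Finset ι) (q : ι → E) (Z : ι → E →L[ℝ] E) (m : Seminorm ℝ E)
    (β b : ℝ) (z : E) : Prop :=
  ∀ a ∈ rel z, (∀ v w, |⟪Z a v, w⟫| ≤ β * m v * m w) ∧ m (z - q a) ≤ b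

variable (E) in
/-- the gluing statement with a given constant `c` -/
def GlueC (ρ c : ℝ) : Prop := ∀ r : ℝ, 0 < r →
  ∃ (ι : Type) (pt : ι → E) (χ : ι → E → ℝ) (rel : E → Finset ι),
    (∀ z, ∀ a ∈ rel z, ‖z - pt a‖ ≤ ρ * r) ∧ (∀ z, ((rel z).card : ℝ) ≤ c) ∧
    (∀ a z, 0 ≤ χ a z) ∧ (∀ a z, a ∉ rel z → χ a z = 0) ∧
    (∀ z (S : Finset ι), rel z ⊆ S → ∑ a ∈ S, χ a z = 1) ∧
    (∀ a z z', |χ a z - χ a z'| ≤ c / r * ‖z - z'‖) ∧
    ∀ (q : ι → E) (Z : ι → E →L[ℝ] E), (∀ a v w, ⟪Z a v, w⟫ = ⟪v, Z a w⟫) →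
      ∃ (Ψ : E → E) (T Q : E → E →L[ℝ] E), (∀ z, HasFDerivAt Ψ (1 + T z) z) ∧
        (∀ z v w, ⟪v + T z v, w + T z w⟫ = ⟪v, w⟫ + 2 * ∑ a ∈ rel z, χ a z * ⟪Z a v, w⟫ +
          2 * ⟪Q z v, w⟫ + ⟪T z v, T z w⟫) ∧
        ∀ (m : Seminorm ℝ E) (β e σ K : ℝ), 0 ≤ β → 0 ≤ σ → σ ≤ e → 1 ≤ K →
          (∀ v, m v ≤ e * ‖v‖) → (∀ v, σ * ‖v‖ ≤ m v) →
          (∀ z, Good rel q Z m β (K * σ * r) z →
            (∀ v, ‖T z v‖ ≤ c * K ^ 2 * β * e * m v) ∧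
            (∀ v w, |⟪Q z v, w⟫| ≤ c * K ^ 2 * β * σ ^ 2 * ‖v‖ * ‖w‖) ∧
            ‖Ψ z - z‖ ≤ c * K ^ 2 * β * e * σ * r) ∧
          (∀ z z', Good rel q Z m β (K * σ * r) z → Good rel q Z m β (K * σ * r) z' →
            ∀ v, ‖T z v - T z' v‖ ≤
              c * K ^ 2 * β * e / r * (‖z - z'‖ * m v + ‖v‖ * m (z - z'))) ∧
          (∀ z z', (∀ y ∈ segment ℝ z z', Good rel q Z m β (K * σ * r) y) →
            ‖Ψ z' - Ψ z - (z' - z) - T z (z' - z)‖ ≤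
              c * K ^ 2 * β * e / r * ‖z' - z‖ * m (z' - z))

variable (E) in
/-- **B-a**: the gluing statement with localization radius `ρ r` (`ρ = √n` for the lattice
partition of unity). `c` depends only on `E`, `ρ`. -/
def GlueStatement (ρ : ℝ) : Prop := ∃ c : ℝ, 1 ≤ c ∧ GlueC E ρ c

end glue

section data
variable (X : Type*) (E : Type) [MetricSpace X] [NormedAddCommGroup E] [InnerProductSpace ℝ E]

/-- The data of Theorem B. `N k x v = |v|_{k,x}`, `g k x (v, v) = N k x v ^ 2`. -/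
structure Data where
  u : X → E
  g : ℕ → X → Bi E
  N : ℕ → X → Seminorm ℝ E
  nn : ℕ → X → Seminorm ℝ E
  D : ℕ → X → ℝ

/-- the constants -/
structure Par where
  (C0 C1 Λ τ B ε δ r0 : ℝ)

variable {X E}

/-- the scales `r k = r0 Λ^{-k}` -/
def Par.r (P : Par) (k : ℕ) : ℝ := P.r0 / P.Λ ^ k

/-- hypotheses (h1)-(h7) of Theorem B -/
structure Hyp (P : Par) (A : Data X E) : Prop where
  symm : ∀ k x v v', A.g k x v v' = A.g k x v' v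
  gN : ∀ k x v, A.g k x v v = A.N k x v ^ 2
  pos : ∀ k x v, v ≠ 0 → 0 < A.N k x v
  diam : ∀ x y : X, dist x y ≤ P.r0
  h1a : ∀ k x y, dist x y ≤ P.C0 * P.r k → |A.N k x (A.u x - A.u y) - dist x y| ≤ P.ε * P.r k
  h1b : ∀ k x y, dist x y ≤ P.C0 * P.r k → A.N k x (A.u x - A.u y) ≤ 2 * dist x y
  h2 : ∀ k x v v', |A.g (k + 1) x v v' - A.g k x v v'| ≤ P.B * A.nn k x v * A.nn k x v'
  h3 : ∀ k x y, dist x y ≤ P.C0 * P.r k → ∀ v v', |A.g k x v v' - A.g k y v v'| ≤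
    P.C1 * (dist x y / P.r k) * A.nn k x v * A.nn k x v'
  h4a : ∀ k x v, A.nn k x v ^ 2 ≤ P.ε * A.N k x v ^ 2
  h4b : ∀ k x y, dist x y ≤ P.C0 * P.r k → ∀ v, A.nn k y v ≤ P.C1 * A.nn k x v
  h4c : ∀ k x v, A.nn k x v ≤ P.τ * A.nn (k + 1) x v
  h5 : ∀ k x y, dist x y ≤ P.C0 * P.r k →
    A.nn k x (A.u x - A.u y) ^ 2 ≤ P.B * P.r k ^ 2 * (A.D k x + A.D k y)
  h6a : ∀ k, ∃ d : ℝ, 0 < d ∧ ∀ x, d ≤ A.D k x
  h6b : ∀ k x, A.D k x ≤ P.τ ^ 2 * A.D (k + 1) x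
  h6c : ∀ (K : ℕ) x, ∑ k ∈ Finset.range K, A.D k x ≤ P.δ
  h7 : ∀ j k, j ≤ k → ∀ x v, A.N j x v ^ 2 ≤ 2 * A.N k x v ^ 2

/-- `mm k x v = max (nn k x v) (√(B D k x) |v|_{k,x})` -/
def mm (P : Par) (A : Data X E) (k : ℕ) (x : X) (v : E) : ℝ :=
  max (A.nn k x v) (√(P.B * A.D k x) * A.N k x v)

/-- `max (mm k x v) (mm k y v)` -/
def mp (P : Par) (A : Data X E) (k : ℕ) (x y : X) (v : E) : ℝ := max (mm P A k x v) (mm P A k y v)

/-- the level-`k` state with the invariants (I1)-(I5) -/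
structure St (P : Par) (A : Data X E) (κ θ θ' B3 : ℝ) (k : ℕ) where
  F : X → E
  J : X → E →L[ℝ] E
  Δ : X → Bi E
  R : X → Bi E
  symmΔ : ∀ x v v', Δ x v v' = Δ x v' v
  I1 : ∀ x y, dist x y ≤ P.r k → ‖F y - F x - J x (A.u y - A.u x)‖ ≤
    κ / P.r k * dist x y * mp P A k x y (A.u y - A.u x)
  I2 : ∀ x y, dist x y ≤ P.r k → ∀ v, ‖J y v - J x v‖ ≤
    κ / P.r k * (dist x y * mp P A k x y v + A.N k x v * mp P A k x y (A.u y - A.u x))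
  I3 : ∀ x v v', ⟪J x v, J x v'⟫ = A.g k x v v' + R x v v' + Δ x v v'
  I3Δ : ∀ x v v', |Δ x v v'| ≤ θ * mm P A k x v * mm P A k x v'
  I3R : ∀ x v v', |R x v v'| ≤
    B3 * ∑ j ∈ Finset.range (k + 1), A.D j x * A.N j x v * A.N j x v'
  I4 : ∀ x y, dist x y ≤ P.r k → ∀ v v', |Δ x v v' - Δ y v v'| ≤
    θ' / P.r k * (dist x y * mp P A k x y v * mp P A k x y v' +
      mp P A k x y (A.u y - A.u x) * A.N k x v * mp P A k x y v' +
      mp P A k x y (A.u y - A.u x) * A.N k x v' * mp P A k x y v)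
  I5 : ∀ x y, P.r (k + 1) ≤ dist x y → 4 / 5 * dist x y + P.r (k + 1) / 20 ≤ ‖F x - F y‖

end data

end Vale.Agent.P242.PB
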